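import Vale.Agent.P167.H364.Root
import Vale.Agent.P167.H72.SD.Wf

/-!
# P167, `0 < q < 4`, [GEO]: the outer faces of the free arc are joined outside of the domain

ROW GEO:D (statements: H364/RootD.lean).

* `chain_D`: the outer faces around the vertices of the free arc before `t` are joined, off `Dq`, off
  the path below `t` and off the root square, to the left neighbour of `t`;
* `flat_D`: the outer faces around the vertices of the free arc from `t` on which are corners of
  squares of `Dq`.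
-/

set_option autoImplicit false

namespace Vale.Agent.P167.H943

open Finset Relation Vale.Agent.P167.FK
open Vale.Agent.P145.FB (PStep)
open Vale.Agent.P167.FKA (Cor)
open Vale.Agent.P167.E6 (IsPolygon Encloses edges wiredOpen face dir)
open Vale.Agent.P167.E2 (ri ext_iff enc_out ro_spec val_aux)
open Vale.Agent.P167.H718 (Dq)
open Vale.Agent.P167.H161 (face_key G_succ fin4_ofNat)
open Vale.Agent.P167.H72.SD (dk om Wf Oq fo_mem)
open Vale.Agent.P167.H918 (Loc)
open Vale.Agent.P167.H364 (rT ra CJ)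

variable {n : ℕ} {p : ZMod n → ℤ × ℤ} {S : Finset (ℤ × ℤ)} {k M : ℕ} {R : ℤ}
  {A : Finset (Sym2 (ℤ × ℤ))}

/-- The squares around a vertex. -/
theorem cor_sq (u : ℤ × ℤ) (r : Fin 4) : Cor (H192.sq s(u, u + dir r)) (H192.ro u) := by
  rw [H192.sq_mk]
  obtain ⟨h1, h2⟩ := H192.ro_dir u r
  refine ⟨?_, ?_⟩
  · show _ = min _ _ ∨ _ = min _ _ + 1
    omega
  · show _ = min _ _ ∨ _ = min _ _ + 1
    omega

section

variable {X : Set (ℤ × ℤ)}

/-- A step between two exterior faces, in a set of squares which contains the closed squares off `Dq`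
around the vertex. -/
theorem fstepX (hp : IsPolygon p) (hS : Encloses p S) (hA : A ⊆ edges S) {i : ZMod n} {r : Fin 4}
    (hX : ∀ v ∈ Oq p k S A, Cor v (H192.ro (p i)) → v ∈ X)
    (h1 : face (p i) r ∉ S) (h2 : face (p i) (r + 1) ∉ S) :
    PStep X (H192.rf (face (p i) r)) (H192.rf (face (p i) (r + 1))) := by
  obtain ⟨⟨h3, h4⟩, h5⟩ := face_key (p i) r
  refine ⟨h3, h4, ?_⟩
  rw [h5]
  refine hX _ (fo_mem hA ?_ hp hS) (cor_sq _ _)
  rw [H192.ed_sq ⟨p i, r + 1, rfl⟩]
  rw [E2.mem_edges]
  rintro (h | h)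
  · exact h2 h
  · rw [add_sub_cancel_right] at h
    exact h1 h

theorem flocX (hp : IsPolygon p) (hS : Encloses p S) (hA : A ⊆ edges S) {i : ZMod n} {r : Fin 4}
    (hX : ∀ v ∈ Oq p k S A, Cor v (H192.ro (p i)) → v ∈ X) (hr : face (p i) r ∉ S) :
    ReflTransGen (PStep X) (H192.rf (face (p i) (ri p i))) (H192.rf (face (p i) r)) := by
  have key : ∀ t : ℕ, t < (E2.ro p i - ri p i).val → ReflTransGen (PStep X)
      (H192.rf (face (p i) (ri p i))) (H192.rf (face (p i) (ri p i + Fin.ofNat 4 t))) := by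
    intro t
    induction t with
    | zero =>
      intro _
      have : ri p i + Fin.ofNat 4 0 = ri p i := by
        generalize ri p (i : ZMod n) = r
        revert r
        decide
      rw [this]
    | succ t ih =>
      intro ht
      obtain ⟨h1, h2⟩ := val_aux (E2.ro p i) (ri p i) t (by omega) ht
      refine (ih (by omega)).tail ?_
      have h3 : t < 4 := by omega
      have e1 : ri p i + Fin.ofNat 4 (t + 1) = ri p i + Fin.ofNat 4 t + 1 := by
        clear h1 h2 ht ih
        generalize ri p (i : ZMod n) = r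
        interval_cases t <;> revert r <;> decide
      rw [e1]
      exact fstepX hp hS hA hX ((ext_iff hp hS).2 h1) ((ext_iff hp hS).2 h2)
  have h1 := key _ ((ext_iff hp hS).1 hr)
  rwa [fin4_ofNat] at h1

/-- The exterior faces around the vertices `p i, …, p j` are joined. -/
theorem chainX (hp : IsPolygon p) (hS : Encloses p S) (hA : A ⊆ edges S) {i j : ℕ} (hij : i ≤ j)
    (hX : ∀ m : ℕ, m ≤ j → ∀ v ∈ Oq p k S A, Cor v (H192.ro (p (m : ZMod n))) → v ∈ X) :
    ReflTransGen (PStep X) (H192.rf (face (p (i : ZMod n)) (ri p (i : ZMod n))))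
      (H192.rf (face (p (j : ZMod n)) (ri p (j : ZMod n)))) := by
  induction j, hij using Nat.le_induction with
  | base => exact ReflTransGen.refl
  | succ j hij ih =>
    rw [G_succ hp]
    exact (ih fun m hm => hX m (by omega)).trans
      (flocX hp hS hA (hX j (by omega)) (enc_out hp hS).2)

end

section

variable {t : ℤ × ℤ} {l : ℕ}

theorem rT_bd {v : ℤ × ℤ} (h : v ∈ rT t l ∨ v = ra t l) :
    t.1 ≤ v.1 ∧ v.1 ≤ t.1 + l ∧ t.2 - 2 ≤ v.2 ∧ v.2 ≤ t.2 - 1 := by
  rcases h with h | rfl
  · rw [rT, mem_insert, mem_image] at h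
    rcases h with rfl | ⟨x, hx, rfl⟩
    · refine ⟨?_, ?_, ?_, ?_⟩ <;> dsimp only <;> omega
    · rw [mem_Ioo] at hx
      refine ⟨?_, ?_, ?_, ?_⟩ <;> dsimp only <;> omega
  · refine ⟨?_, ?_, ?_, ?_⟩ <;> simp only [ra] <;> omega

/-- The vertex `p (k - m)`. -/
theorem vert (H : Loc p S k M R) {m : ℕ} (hm : m ≤ M + 1) (hk : m ≤ k) :
    H192.ro (p ((k - m : ℕ) : ZMod n)) =
      ((H192.ro (p k)).1 - m, (H192.ro (p k)).2 + (if Even m then 0 else 1)) := by
  rw [← H.pos_bw m hm]
  congr 2
  rw [Nat.cast_sub hk]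

/-- The squares around the vertices of the free arc before `t` are not in the path and not the root
square. -/
theorem far_D (H : Loc p S k M R) (ht : t + ((l : ℤ), 0) = H192.ro (p k)) (hR : (l : ℤ) + 8 ≤ R)
    {i : ℕ} (hi : i ≤ k - l - 1) {v : ℤ × ℤ} (hv : Cor v (H192.ro (p (i : ZMod n)))) :
    v ∉ rT t l ∧ v ≠ ra t l := by
  rw [← not_or]
  intro h
  obtain ⟨h1, h2, h3, h4⟩ := rT_bd h
  have e1 : (H192.ro (p k)).1 = t.1 + l := by rw [← ht]; rfl
  have e2 : (H192.ro (p k)).2 = t.2 := by rw [← ht]; simp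
  obtain ⟨c1, c2⟩ := hv
  have hk1 := H.hk1
  have hk2 := H.hk2
  have hRM := H.hR
  obtain ⟨h5, -⟩ := H.near i (by omega) (by rw [e1, abs_le]; constructor <;> omega)
    (by rw [e2, abs_le]; constructor <;> omega)
  have h6 := vert H (m := k - i) (by omega) (by omega)
  rw [show k - (k - i) = i by omega] at h6
  have h7 := congrArg Prod.fst h6
  simp only at h7
  omega

/-- The left neighbour of `t` is an outer face around `p (k - l - 1)`. -/
theorem left_t (H : Loc p S k M R) (ht : t + ((l : ℤ), 0) = H192.ro (p k)) (hl : Even l)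
    (hR : (l : ℤ) + 8 ≤ R) : face (p ((k - l - 1 : ℕ) : ZMod n)) 2 ∉ S ∧
      H192.rf (face (p ((k - l - 1 : ℕ) : ZMod n)) 2) = (t.1 - 1, t.2) := by
  have e1 : (H192.ro (p k)).1 = t.1 + l := by rw [← ht]; rfl
  have e2 : (H192.ro (p k)).2 = t.2 := by rw [← ht]; simp
  have hk1 := H.hk1
  have hRM := H.hR
  have h1 : p ((k : ZMod n) - l) = p ((k : ZMod n) - l - 1) + dir 3 := by
    have h := H.bw l (by omega)
    rwa [if_pos hl] at h
  have e3 : ((k - l - 1 : ℕ) : ZMod n) = (k : ZMod n) - l - 1 := by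
    rw [show k - l - 1 = k - (l + 1) by omega, Nat.cast_sub (by omega)]
    push_cast
    ring
  constructor
  · have h := ((H.enc (p ((k : ZMod n) - l - 1)) 3).1 ⟨_, rfl, by rw [sub_add_cancel]; exact h1⟩).2
    rw [e3]
    exact h
  · have h4 := vert H (m := l + 1) (by omega) (by omega)
    rw [show k - (l + 1) = k - l - 1 by omega, if_neg (by rw [Nat.even_iff] at *; omega), e1,
      e2] at h4
    generalize p ((k - l - 1 : ℕ) : ZMod n) = u at h4
    have h5 := congrArg Prod.fst h4
    have h6 := congrArg Prod.snd h4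
    simp only [H192.ro] at h5 h6
    push_cast at h5
    simp only [H192.rf, face]
    refine Prod.ext ?_ ?_
    · simp
      omega
    · simp
      omega

/-- **The outer faces around the vertices of the free arc before `t` are joined (off `Dq`, off the
path, off the root square) to the left neighbour of `t`.** -/
theorem chain_D (H : Loc p S k M R) (hA : A ⊆ edges S)
    (ht : t + ((l : ℤ), 0) = H192.ro (p k)) (hl : Even l) (hR : (l : ℤ) + 8 ≤ R)
    {s : ℤ × ℤ} (hs : s ∈ Wf p S (k - l - 1)) :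
    CJ (Dq S p k) (om p k A) t l s (t.1 - 1, t.2) := by
  obtain ⟨i, r, hi, hr, rfl⟩ := hs
  have e1 : (H192.ro (p k)).1 = t.1 + l := by rw [← ht]; rfl
  have e2 : (H192.ro (p k)).2 = t.2 := by rw [← ht]; simp
  have hk1 := H.hk1
  have hRM := H.hR
  have hX : ∀ m : ℕ, m ≤ k - l - 1 → ∀ v ∈ Oq p k S A, Cor v (H192.ro (p (m : ZMod n))) →
      v ∈ {v | v ∉ Dq S p k ∧ om p k A v = false ∧ v ∉ rT t l ∧ v ≠ ra t l} := by
    intro m hm v hv hc
    obtain ⟨h1, h2⟩ := hv
    obtain ⟨h3, h4⟩ := far_D H ht hR hm hc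
    exact ⟨h1, h2, h3, h4⟩
  obtain ⟨h2, h3⟩ := left_t H ht hl hR
  have h4 := flocX H.poly H.enc hA (hX i hi) hr
  have h5 := chainX H.poly H.enc hA hi hX
  have h6 := flocX H.poly H.enc hA (hX _ le_rfl) h2
  rw [h3] at h6
  exact (FKA.rtg_symm h4).trans (h5.trans h6)

/-- The faces around an even site. -/
theorem rf_face (u : ℤ × ℤ) (r : Fin 4) :
    H192.rf (face u r) = ((H192.ro u).1, (H192.ro u).2 + 1) ∨
    H192.rf (face u r) = ((H192.ro u).1 - 1, (H192.ro u).2) ∨
    H192.rf (face u r) = ((H192.ro u).1, (H192.ro u).2 - 1) ∨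
    H192.rf (face u r) = ((H192.ro u).1 + 1, (H192.ro u).2) := by
  rcases H192.fin4_cases r with rfl | rfl | rfl | rfl
  · left
    simp only [H192.rf, face, H192.ro]
    refine Prod.ext ?_ ?_ <;> simp
  · right; left
    simp only [H192.rf, face, H192.ro]
    refine Prod.ext ?_ ?_ <;> simp <;> ring
  · right; right; left
    simp only [H192.rf, face, H192.ro]
    refine Prod.ext ?_ ?_ <;> simp <;> ring
  · right; right; right
    simp only [H192.rf, face, H192.ro]
    refine Prod.ext ?_ ?_ <;> simp <;> ring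

/-- The outer faces around the vertices of the free arc from `t` on which are corners of squares of
the domain. -/
theorem flat_D (H : Loc p S k M R)
    (ht : t + ((l : ℤ), 0) = H192.ro (p k)) (hl : Even l) (hR : (l : ℤ) + 8 ≤ R)
    {s x : ℤ × ℤ} (hs : s ∈ Wf p S k) (hs' : s ∉ Wf p S (k - l - 1)) (hx : x ∈ Dq S p k)
    (hxs : Cor x s) : s.2 = t.2 ∧ t.1 < s.1 ∧ s.1 < t.1 + l := by
  obtain ⟨i, r, hi, hr, rfl⟩ := hs
  have e1 : (H192.ro (p k)).1 = t.1 + l := by rw [← ht]; rfl
  have e2 : (H192.ro (p k)).2 = t.2 := by rw [← ht]; simp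
  have hk1 := H.hk1
  have hRM := H.hR
  have h0 : k - l - 1 < i := by
    by_contra h
    exact hs' ⟨i, r, by omega, hr, rfl⟩
  have h1 := vert H (m := k - i) (by omega) (by omega)
  rw [show k - (k - i) = i by omega, e1, e2] at h1
  have hml : k - i ≤ l := by omega
  obtain ⟨m, hm⟩ : ∃ m : ℕ, k - i = m := ⟨_, rfl⟩
  rw [hm] at h1 hml
  have h1a := congrArg Prod.fst h1
  have h1b := congrArg Prod.snd h1
  simp only at h1a h1b
  -- the face is outside
  set s := H192.rf (face (p (i : ZMod n)) r) with hsd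
  have hodd : ¬ Even (s.1 + s.2) := H192.odd_rf _
  have hfs := rf_face (p (i : ZMod n)) r
  rw [← hsd] at hfs
  have hb : t.1 - 1 ≤ s.1 ∧ s.1 ≤ t.1 + l + 1 ∧ t.2 - 1 ≤ s.2 ∧ s.2 ≤ t.2 + 2 := by
    have h2 : (if Even m then (0 : ℤ) else 1) = 0 ∨ (if Even m then (0 : ℤ) else 1) = 1 := by
      split_ifs <;> simp
    rcases hfs with h | h | h | h <;>
    · have a1 := congrArg Prod.fst h
      have a2 := congrArg Prod.snd h
      simp only at a1 a2
      rw [h1a] at a1
      rw [h1b] at a2
      omega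
  have hout := H.face_iff (s := s) hodd (by
      have : |s.1 - (H192.ro (p k)).1| ≤ R - 1 := by rw [e1, abs_le]; constructor <;> omega
      linarith) (by
      have : |s.2 - (H192.ro (p k)).2| ≤ R - 1 := by rw [e2, abs_le]; constructor <;> omega
      linarith)
  rw [hsd, H192.rf'_rf, ← hsd, e1, e2] at hout
  have hout' := mt hout.2 hr
  -- the square is above the line
  obtain ⟨c1, c2⟩ := hxs
  have hx2 : t.2 ≤ x.2 := by
    have h3 := H.mem_Dq_iff (x := x.1) (y := x.2) (by
      have : |x.1 - (H192.ro (p k)).1| ≤ R - 1 := by rw [e1, abs_le]; constructor <;> omega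
      linarith) (by
      have : |x.2 - (H192.ro (p k)).2| ≤ R - 2 := by rw [e2, abs_le]; constructor <;> omega
      linarith)
    rw [e2] at h3
    exact h3.1 hx
  have h5 : s.2 = t.2 ∧ s.1 < t.1 + l := by
    split_ifs at hout' with h6
    · exfalso
      omega
    · omega
  refine ⟨h5.1, ?_, h5.2⟩
  by_contra h6
  -- the left neighbour of `t`
  have h7 : s.1 = t.1 - 1 ∨ s.1 = t.1 := by omega
  have het : Even (t.1 + t.2) := by
    have h8 := H192.even_ro (p k)
    rw [e1, e2] at h8
    rw [Int.even_iff] at h8 ⊢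
    rw [Nat.even_iff] at hl
    omega
  rw [Int.even_iff] at hodd het
  rcases h7 with h7 | h7
  · obtain ⟨g1, g2⟩ := left_t H ht hl hR
    refine hs' ⟨k - l - 1, 2, le_rfl, g1, g2.trans ?_⟩
    exact Prod.ext h7.symm h5.1.symm
  · have := h5.1
    omega

end

end Vale.Agent.P167.H943
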