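import Vale.Agent.P167.H364.Wd
import Vale.Agent.P167.H364.Opn
import Vale.Agent.P167.H943.RootD
import Vale.Agent.P167.H72.SD.Lat3
import Vale.Agent.P167.H72.SD.Wf

/-!
# P167, `0 < q < 4`, [GEO]: the worlds of the explored domain

ROW GEO:WD (statements: H364/WdT.lean). `wd_dk`, `wd_up`, `wd_lo`: the boundary structures `Wd` of the
explored domain, of the explored domain with open `Bad` and with closed `Bad`.
-/

set_option autoImplicit false

namespace Vale.Agent.P167.H943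

open Finset Relation Vale.Agent.P167.FK
open Vale.Agent.P145.FB (PStep)
open Vale.Agent.P167.FKA (Cor)
open Vale.Agent.P167.E6 (IsPolygon Encloses edges wiredOpen face dir)
open Vale.Agent.P167.H718 (Dq)
open Vale.Agent.P167.H161 (Rd)
open Vale.Agent.P167.H72.SD (dk om Wf WD TD Up Lo Wr Fr Kc joined_dk free_dk mem_dk out_edge even_of)
open Vale.Agent.P167.H918 (Loc)
open Vale.Agent.P167.H364

variable {n : ℕ} {p : ZMod n → ℤ × ℤ} {S : Finset (ℤ × ℤ)} {k M : ℕ} {R : ℤ}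
  {A : Finset (Sym2 (ℤ × ℤ))} {j : ℕ} {t : ℤ × ℤ} {l lc : ℕ}

theorem good_omA : Good (om p k A) := by
  classical
  have h : (wiredOpen p k A : Set (Sym2 (ℤ × ℤ))) =
      ((A ∪ H718.wE p k : Finset (Sym2 (ℤ × ℤ))) : Set (Sym2 (ℤ × ℤ))) := by
    ext e
    rw [H718.mem_wiredOpen, Finset.mem_coe, Finset.mem_union]
  show Good (H192.cfg (wiredOpen p k A))
  rw [h]
  exact H718.good_of_finite _

section

variable {D : Finset (ℤ × ℤ)} {ζ : Cfg}

/-- Coordinates of the junction. -/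
theorem tb (ht : t + ((l : ℤ), 0) = H192.ro (p k)) :
    (H192.ro (p k)).1 = t.1 + l ∧ (H192.ro (p k)).2 = t.2 := by
  constructor
  · rw [← ht]; rfl
  · rw [← ht]; simp

/-- The squares of the domain near the flat side are above the line. -/
theorem above (H : Loc p S k M R) (ht : t + ((l : ℤ), 0) = H192.ro (p k)) {w : ℤ}
    (hw : w + 3 ≤ R) (hR : 8 ≤ R) {x y : ℤ} (h1 : t.1 + l - w ≤ x) (h2 : x ≤ t.1 + l + w) (h3 : t.2 - 4 ≤ y)
    (h4 : y < t.2) : (x, y) ∉ Dq S p k := by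
  obtain ⟨e1, e2⟩ := tb ht
  rw [H.mem_Dq_iff (x := x) (y := y) (by
    have : |x - (H192.ro (p k)).1| ≤ R - 1 := by rw [e1, abs_le]; constructor <;> omega
    linarith) (by
    have : |y - (H192.ro (p k)).2| ≤ R - 2 := by rw [e2, abs_le]; constructor <;> omega
    linarith), e2]
  omega

/-- The open squares below the line. -/
theorem cfgw (H : Loc p S k M R) (hA : A ⊆ edges S) (ht : t + ((l : ℤ), 0) = H192.ro (p k)) {w : ℤ}
    (hw : w + 3 ≤ R) (hR : 8 ≤ R) {x y : ℤ} (h1 : t.1 + l - w ≤ x) (h2 : x ≤ t.1 + l + w) (h3 : t.2 - 4 ≤ y)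
    (h4 : y < t.2) : om p k A (x, y) = true ↔ y = t.2 - 1 ∧ t.1 + l ≤ x := by
  obtain ⟨e1, e2⟩ := tb ht
  have h := H.cfg_iff (x := x) (y := y) (by
    have : |x - (H192.ro (p k)).1| ≤ R - 1 := by rw [e1, abs_le]; constructor <;> omega
    linarith) (by
    have : |y - (H192.ro (p k)).2| ≤ R - 2 := by rw [e2, abs_le]; constructor <;> omega
    linarith) (by rw [e2]; exact h4) hA
  rw [e1, e2] at h
  exact h

/-- The squares of the domain are not in the path and not the root square. -/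
theorem off_rT (H : Loc p S k M R) (ht : t + ((l : ℤ), 0) = H192.ro (p k)) (hR : (l : ℤ) + 8 ≤ R)
    {v : ℤ × ℤ} (hv : v ∈ Dq S p k) : v ∉ rT t l ∧ v ≠ ra t l := by
  rw [← not_or]
  intro h
  obtain ⟨h1, h2, h3, h4⟩ := rT_bd h
  exact above H ht (w := l) (x := v.1) (y := v.2) (by omega) (by omega) (by omega) (by omega)
    (by omega) (by omega) hv

theorem dk_sub : dk p k S A j ⊆ Dq S p k := sdiff_subset

/-- The outer faces before `c` are joined to the left neighbour of `t`. -/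
theorem cj_wf (H : Loc p S k M R) (hA : A ⊆ edges S)
    (ht : t + ((l : ℤ), 0) = H192.ro (p k)) (hl : Even l) (hR : (l : ℤ) + 8 ≤ R)
    (hlc : l ≤ lc) (hD : D ⊆ dk p k S A j) (hζ : ∀ v, v ∉ dk p k S A j → ζ v = om p k A v)
    {s : ℤ × ℤ} (hs : s ∈ Wf p S (k - lc - 1)) : CJ D ζ t l s (t.1 - 1, t.2) := by
  have hs' : s ∈ Wf p S (k - l - 1) := by
    obtain ⟨i, r, hi, h1, h2⟩ := hs
    exact ⟨i, r, by omega, h1, h2⟩
  refine H72.SD.rtg_mono ?_ (chain_D H hA ht hl hR hs')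
  rintro v ⟨h1, h2, h3, h4⟩
  have h5 : v ∉ dk p k S A j := fun h => h1 (dk_sub h)
  exact ⟨fun h => h5 (hD h), by rw [hζ v h5]; exact h2, h3, h4⟩

/-- A path of closed read squares and closed squares of the domain off `D`. -/
theorem cj_cl (H : Loc p S k M R) (ht : t + ((l : ℤ), 0) = H192.ro (p k)) (hR : (l : ℤ) + 8 ≤ R)
    (hD : D ⊆ dk p k S A j) (hζ : ∀ v, v ∉ dk p k S A j → ζ v = om p k A v)
    {X : Set (ℤ × ℤ)} (hX : ∀ v ∈ X, v ∈ Kc p k S A j ∨ (v ∈ dk p k S A j ∧ v ∉ D ∧ ζ v = false))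
    {s s' : ℤ × ℤ} (h : ReflTransGen (PStep X) s s') : CJ D ζ t l s s' := by
  refine H72.SD.rtg_mono ?_ h
  intro v hv
  rcases hX v hv with ⟨h1, h2⟩ | ⟨h1, h2, h3⟩
  · have h3 : v ∉ dk p k S A j := fun h => (mem_dk.1 h).2 h1
    have h4 : v ∈ Dq S p k := by
      have h5 := H161.Rd_subset j h1
      rwa [QG.dq_eq] at h5
    obtain ⟨h5, h6⟩ := off_rT H ht hR h4
    exact ⟨fun h => h3 (hD h), by rw [hζ v h3]; exact h2, h5, h6⟩
  · obtain ⟨h5, h6⟩ := off_rT H ht hR (dk_sub h1)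
    exact ⟨h2, h3, h5, h6⟩

theorem cj_trans {s s' s'' : ℤ × ℤ} (h : CJ D ζ t l s s') (h' : CJ D ζ t l s' s'') :
    CJ D ζ t l s s'' := ReflTransGen.trans h h'

theorem cj_symm {s s' : ℤ × ℤ} (h : CJ D ζ t l s s') : CJ D ζ t l s' s := FKA.rtg_symm h

/-- The free bank is joined to the left neighbour of `t`. -/
theorem cj_WD (H : Loc p S k M R) (hA : A ⊆ edges S)
    (ht : t + ((l : ℤ), 0) = H192.ro (p k)) (hl : Even l) (hR : (l : ℤ) + 8 ≤ R)
    (hlc : l ≤ lc) (hD : D ⊆ dk p k S A j) (hζ : ∀ v, v ∉ dk p k S A j → ζ v = om p k A v)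
    (hmet : ∀ i ≤ j - 1, E2.fc (E2.run p k A i) ∉ S →
      H192.rf (E2.fc (E2.run p k A i)) ∈ Wf p S (k - lc - 1))
    {s : ℤ × ℤ} (hs : s ∈ WD p k S A j (Wf p S (k - lc - 1))) : CJ D ζ t l s (t.1 - 1, t.2) := by
  rcases hs with hs | hs
  · exact cj_wf H hA ht hl hR hlc hD hζ hs
  · obtain ⟨i, h1, h2, h3⟩ := free_dk H.poly H.enc hA hs
    exact cj_trans (cj_symm (cj_cl H ht hR hD hζ (fun v hv => Or.inl hv) h3))
      (cj_wf H hA ht hl hR hlc hD hζ (hmet i h1 h2))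

/-- The odd contacts. -/
theorem odd_c (H : Loc p S k M R) (ht : t + ((l : ℤ), 0) = H192.ro (p k))
    (hlc2 : Even lc) (hR : (lc : ℤ) + 8 ≤ R) {s x z : ℤ × ℤ} (hs : (s.1 + s.2) % 2 = 1)
    (hx : x ∈ dk p k S A j) (hxs : Cor x s) (hz : z ∉ dk p k S A j) (hzc : om p k A z = false)
    (hzs : Cor z s) : s ∈ WD p k S A j (Wf p S (k - lc - 1)) ∨
      (s.2 = t.2 ∧ t.1 + l - lc < s.1 ∧ s.1 < t.1 + l) := by
  obtain ⟨e1, e2⟩ := tb ht
  by_cases hq : z ∈ Dq S p k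
  · have hR' : z ∈ Rd p k S A j := by
      by_contra h
      exact hz (mem_dk.2 ⟨hq, h⟩)
    exact Or.inl (Or.inr ⟨hs, z, hR', hzc, hzs⟩)
  · by_cases hw : s ∈ Wf p S (k - lc - 1)
    · exact Or.inl (Or.inl hw)
    refine Or.inr ?_
    have := H.neZero
    obtain ⟨i, h3, h4, r, h5, h6⟩ := out_edge H.poly H.enc hs (dk_sub hx) hxs hq hzc hzs
    -- the vertex `i + 1`
    have hk : s ∈ Wf p S k := by
      rcases h4 with h4 | h4
      · refine ⟨i.val + 1, r, by omega, ?_, ?_⟩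
        · push_cast
          rw [ZMod.natCast_zmod_val]
          exact h5
        · push_cast
          rw [ZMod.natCast_zmod_val]
          exact h6
      · have e3 : i + 1 = ((0 : ℕ) : ZMod n) := by
          have e2 : ((i.val + 1 : ℕ) : ZMod n) = 0 := by rw [h4]; exact ZMod.natCast_self n
          push_cast at e2 ⊢
          rw [ZMod.natCast_zmod_val] at e2
          exact e2
        refine ⟨0, r, Nat.zero_le _, ?_, ?_⟩
        · rw [← e3]
          exact h5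
        · rw [← e3]
          exact h6
    have ht' : ((t.1 + l - lc, t.2) : ℤ × ℤ) + ((lc : ℤ), 0) = H192.ro (p k) := by
      refine Prod.ext ?_ ?_
      · rw [e1]
        show t.1 + l - lc + lc = _
        ring
      · rw [e2]
        show t.2 + 0 = _
        ring
    have h7 := flat_D H ht' hlc2 hR hk hw (dk_sub hx) hxs
    dsimp only at h7
    refine ⟨h7.1, h7.2.1, ?_⟩
    have := h7.2.2
    omega

/-- **The boundary structure from the explored domain.** -/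
theorem wd_of (H : Loc p S k M R) (hA : A ⊆ edges S)
    (ht : t + ((l : ℤ), 0) = H192.ro (p k)) (hlc : l + 8 ≤ lc)
    (hlc2 : Even lc) (hR : (lc : ℤ) + 8 ≤ R) (hD : D ⊆ dk p k S A j)
    (hζ : ∀ v, v ∉ dk p k S A j → ζ v = om p k A v) (hg : Good ζ) {Ar : Set (ℤ × ℤ)}
    (hnu : ∀ s z : ℤ × ℤ, (s.1 + s.2) % 2 = 0 → z ∈ dk p k S A j → z ∉ D → ζ z = true → Cor z s →
      ∃ w ∈ Wr (dk p k S A j) (om p k A), OJ D ζ s w)
    (hnd : ∀ s z : ℤ × ℤ, (s.1 + s.2) % 2 = 1 → z ∈ dk p k S A j → z ∉ D → ζ z = false → Cor z s →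
      s ∈ Ar)
    (hAr : ∀ s ∈ WD p k S A j (Wf p S (k - lc - 1)), s ∈ Ar)
    (har : ∀ s ∈ Ar, (s.1 + s.2) % 2 = 1 → CJ D ζ t l s (t.1 - 1, t.2)) : Wd D ζ t l lc Ar where
  out := fun x y h1 h2 h3 h4 h5 => by
    exact above H ht (w := l + 2) (by omega) (by omega) (by omega) (by omega) h3 h4 (dk_sub (hD h5))
  cfg := fun x y h1 h2 h3 h4 => by
    have h5 := above H ht (w := l + 2) (x := x) (y := y) (by omega) (by omega) (by omega)
      (by omega) h3 h4
    rw [hζ _ fun h => h5 (dk_sub h)]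
    exact cfgw H hA ht (w := l + 2) (by omega) (by omega) (by omega) (by omega) h3 h4
  good := hg
  low := fun x h1 h2 => by
    have h5 := above H ht (w := lc + 1) (x := x) (y := t.2 - 1) (by omega) (by omega) (by omega)
      (by omega) (by omega) (by omega)
    refine ⟨fun h => h5 (dk_sub (hD h)), ?_⟩
    rw [hζ _ fun h => h5 (dk_sub h), ← Bool.not_eq_true,
      cfgw H hA ht (w := lc + 1) (by omega) (by omega) (by omega) (by omega) (by omega) (by omega)]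
    omega
  nu := by
    intro s hs ⟨x, hx, hxs⟩ ⟨z, hz, hzt, hzs⟩
    obtain ⟨e1, e2⟩ := tb ht
    have hb : (t.1 + l, t.2) ∈ Wr (dk p k S A j) (om p k A) := by
      have h5 := above H ht (w := l + 2) (x := t.1 + l) (y := t.2 - 1) (by omega) (by omega)
        (by omega) (by omega) (by omega) (by omega)
      refine ⟨?_, (t.1 + l, t.2 - 1), fun h => h5 (dk_sub h), ?_, Or.inl rfl,
        Or.inr (by dsimp only; ring)⟩
      · have h6 := H192.even_ro (p k)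
        rw [e1, e2] at h6
        exact h6
      · rw [cfgw H hA ht (w := l + 2) (by omega) (by omega) (by omega) (by omega) (by omega)
          (by omega)]
        exact ⟨rfl, le_rfl⟩
    have key : ∃ w ∈ Wr (dk p k S A j) (om p k A), OJ D ζ s w := by
      by_cases hzd : z ∈ dk p k S A j
      · exact hnu s z hs hzd hz hzt hzs
      · exact ⟨s, ⟨even_of hs, z, hzd, by rw [← hζ z hzd]; exact hzt, hzs⟩, ReflTransGen.refl⟩
    obtain ⟨w, hw, h1⟩ := key
    have h2 := joined_dk H.poly (by have := H.hk2; omega) hA j w hw _ hb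
    refine h1.trans (H72.SD.rtg_mono (fun v hv => ?_) h2)
    have hv' : cf (dk p k S A j) (om p k A) ∅ v = true := hv
    by_cases h5 : v ∈ dk p k S A j
    · simp [cf, h5] at hv'
    · simp only [cf, h5, if_false] at hv'
      exact ⟨fun h => h5 (hD h), by rw [hζ v h5]; exact hv'⟩
  nd := by
    intro s hs ⟨x, hx, hxs⟩ ⟨z, hz, hzt, hzs⟩
    by_cases hzd : z ∈ dk p k S A j
    · exact Or.inl (hnd s z hs hzd hz hzt hzs)
    · rcases odd_c H ht hlc2 hR hs (hD hx) hxs hzd (by rw [← hζ z hzd]; exact hzt) hzs with h | h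
      · exact Or.inl (hAr s h)
      · exact Or.inr h
  ar := har

end

/-- The explored domain. `lc` : the distance from `c` to `b`. -/
theorem wd_dk (H : Loc p S k M R) (hA : A ⊆ edges S) {t : ℤ × ℤ} {l lc : ℕ}
    (ht : t + ((l : ℤ), 0) = H192.ro (p k)) (hl : Even l) (hl4 : 4 ≤ l) (hlc : l + 8 ≤ lc)
    (hlc2 : Even lc) (hR : (lc : ℤ) + 8 ≤ R)
    (hbox : ∀ x y : ℤ, t.1 - 2 ≤ x → x ≤ t.1 + l + 2 → t.2 ≤ y → y < t.2 + 4 →
      (x, y) ∈ dk p k S A j)
    (hmet : ∀ i ≤ j - 1, E2.fc (E2.run p k A i) ∉ S →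
      H192.rf (E2.fc (E2.run p k A i)) ∈ Wf p S (k - lc - 1)) :
    Wd (dk p k S A j) (om p k A) t l lc (WD p k S A j (Wf p S (k - lc - 1))) :=
  wd_of H hA ht hlc hlc2 hR (Subset.refl _) (fun _ _ => rfl) good_omA
    (fun _ _ _ h1 h2 _ _ => absurd h1 h2) (fun _ _ _ h1 h2 _ _ => absurd h1 h2) (fun _ h => h)
    (fun _ hs _ => cj_WD H hA ht hl (by omega) (by omega) (Subset.refl _) (fun _ _ => rfl) hmet hs)

/-- The explored domain, the squares of `Bad` are open. -/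
theorem wd_up (H : Loc p S k M R) (hA : A ⊆ edges S) {t : ℤ × ℤ} {l lc : ℕ}
    (ht : t + ((l : ℤ), 0) = H192.ro (p k)) (hl : Even l) (hl4 : 4 ≤ l) (hlc : l + 8 ≤ lc)
    (hlc2 : Even lc) (hR : (lc : ℤ) + 8 ≤ R)
    (hbox : ∀ x y : ℤ, t.1 - 2 ≤ x → x ≤ t.1 + l + 2 → t.2 ≤ y → y < t.2 + 4 →
      (x, y) ∈ dk p k S A j)
    (hmet : ∀ i ≤ j - 1, E2.fc (E2.run p k A i) ∉ S →
      H192.rf (E2.fc (E2.run p k A i)) ∈ Wf p S (k - lc - 1))
    {Bad E P : Finset (ℤ × ℤ)} {ζ : Cfg} {W arcP : Set (ℤ × ℤ)}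
    (h : Up p k S A j Bad E P ζ W arcP) :
    Wd (dk p k S A j \ Bad) (opn Bad (om p k A)) t l lc
      (WD p k S A j (Wf p S (k - lc - 1))) := by
  have hζ : ∀ v, v ∉ dk p k S A j → opn Bad (om p k A) v = om p k A v := by
    intro v hv
    have h1 : v ∉ Bad := fun h1 => hv (h.bad h1)
    simp [opn, h1]
  refine wd_of H hA ht hlc hlc2 hR sdiff_subset hζ (good_opn good_omA) ?_ ?_
    (fun _ h => h)
    (fun _ hs _ => cj_WD H hA ht hl (by omega) (by omega) sdiff_subset hζ hmet hs)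
  · intro s z hs hz hzD _ hzs
    have hzB : z ∈ Bad := by
      by_contra h1
      exact hzD (mem_sdiff.2 ⟨hz, h1⟩)
    obtain ⟨w, hw, h1⟩ := h.badj z hzB s hs hzs
    refine ⟨w, hw, FKA.rtg_symm (H72.SD.rtg_mono ?_ h1)⟩
    rintro v (hv | ⟨h2, h3⟩)
    · exact ⟨fun h2 => (mem_sdiff.1 h2).2 hv, opn_true.2 (Or.inl hv)⟩
    · exact ⟨fun h4 => h2 (mem_sdiff.1 h4).1, opn_true.2 (Or.inr h3)⟩
  · intro s z _ hz hzD hzf _
    exact absurd (mem_sdiff.2 ⟨hz, (opn_false.1 hzf).1⟩) hzD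

/-- The explored domain, the squares of `Bad` are closed. -/
theorem wd_lo (H : Loc p S k M R) (hA : A ⊆ edges S) {t : ℤ × ℤ} {l lc : ℕ}
    (ht : t + ((l : ℤ), 0) = H192.ro (p k)) (hl : Even l) (hl4 : 4 ≤ l) (hlc : l + 8 ≤ lc)
    (hlc2 : Even lc) (hR : (lc : ℤ) + 8 ≤ R)
    (hbox : ∀ x y : ℤ, t.1 - 2 ≤ x → x ≤ t.1 + l + 2 → t.2 ≤ y → y < t.2 + 4 →
      (x, y) ∈ dk p k S A j)
    {Bad E P : Finset (ℤ × ℤ)} {ζ : Cfg} {WP arcP : Set (ℤ × ℤ)}
    (h : Lo p k S A j Bad E P ζ (Wf p S (k - lc - 1)) WP arcP) :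
    Wd (dk p k S A j \ Bad) (cld Bad (om p k A)) t l lc
      (TD p k S A j Bad (Wf p S (k - lc - 1))) := by
  have hζ : ∀ v, v ∉ dk p k S A j → cld Bad (om p k A) v = om p k A v := by
    intro v hv
    have h1 : v ∉ Bad := fun h1 => hv (h.bad h1)
    simp [cld, h1]
  refine wd_of H hA ht hlc hlc2 hR sdiff_subset hζ (good_cld good_omA) ?_ ?_
    (fun _ hs => h.fr H.poly H.enc hA hs) ?_
  · intro s z _ hz hzD hzt _
    exact absurd (mem_sdiff.2 ⟨hz, (cld_true.1 hzt).1⟩) hzD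
  · intro s z hs hz hzD _ hzs
    have hzB : z ∈ Bad := by
      by_contra h1
      exact hzD (mem_sdiff.2 ⟨hz, h1⟩)
    obtain ⟨w, hw, h1⟩ := h.badj z hzB s hs hzs
    obtain ⟨w', hw', h2⟩ := h.fr H.poly H.enc hA hw
    exact ⟨w', hw', h1.trans h2⟩
  · rintro s ⟨w, hw, h1⟩ _
    refine cj_trans (cj_cl H ht (by omega) sdiff_subset hζ (fun v hv => ?_) h1)
      (cj_wf H hA ht hl (by omega) (by omega) sdiff_subset hζ hw)
    rcases hv with hv | hv
    · exact Or.inr ⟨h.bad hv, fun h2 => (mem_sdiff.1 h2).2 hv, cld_false.2 (Or.inl hv)⟩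
    · exact Or.inl hv

end Vale.Agent.P167.H943
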